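import Vale.Agent.P227.M.Stmts

/-! # P254 stage 3, S2b (helper568): moment map data without evenness -/

open MeasureTheory
open scoped Topology

namespace Vale.Agent.P254.S2b568

open Vale.Agent.P227.M

/-- `ψ` is (the Legendre transform of) a `C^{2,1}` moment map potential of `e^{-V}` (not nec. even) -/
structure MM0 {n : ℕ} (ψ V : E n → ℝ) (c C M : ℝ) : Prop where
  c_pos : 0 < c
  C2 : ContDiff ℝ 2 ψ
  lower : ∀ x v, c * ‖v‖ ^ 2 ≤ qf (hess ψ x) v
  upper : ∀ x v, qf (hess ψ x) v ≤ C * ‖v‖ ^ 2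
  lip : ∀ i j x y, |hess ψ x i j - hess ψ y i j| ≤ M * ‖x - y‖
  ma : ∀ x, V x = (∑ i, x i * pd i ψ x) - ψ x - Real.log (hess ψ x).det

end Vale.Agent.P254.S2b568
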