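import Vale.Agent.P254.S2b568.Defs
import Vale.Agent.P227.M.ID.Swap414
import Vale.Agent.P254.S2b568.Rad

/-! # P254, S2b (helper568): summed forms of the commutator identity and pointwise divergences -/

open MeasureTheory Set Filter Topology Metric
open scoped NNReal

namespace Vale.Agent.P254.S2b568

open Vale.Agent.P227.M

open Vale.Agent.P227.M.Sw

variable {n : ℕ}

lemma ll_sum {ι : Type*} (s : Finset ι) {f : ι → E n → ℝ} (h : ∀ i ∈ s, LL (f i)) :
    LL (fun x => ∑ i ∈ s, f i x) := by
  classical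
  induction s using Finset.induction_on with
  | empty => simpa using LL.const (n := n) 0
  | insert i s hi ih =>
    have h1 := (h i (Finset.mem_insert_self i s)).add
      (ih fun j hj => h j (Finset.mem_insert_of_mem hj))
    simpa only [Finset.sum_insert hi] using h1

lemma lb_sum {ι : Type*} (s : Finset ι) {f : ι → E n → ℝ} (h : ∀ i ∈ s, LB (f i)) :
    LB (fun x => ∑ i ∈ s, f i x) := by
  classical
  induction s using Finset.induction_on with
  | empty => simpa using (LL.const (n := n) 0).lb
  | insert i s hi ih =>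
    have h1 := (h i (Finset.mem_insert_self i s)).add
      (ih fun j hj => h j (Finset.mem_insert_of_mem hj))
    simpa only [Finset.sum_insert hi] using h1

lemma bs_sum {ι : Type*} (s : Finset ι) {f : ι → E n → ℝ} (h : ∀ i ∈ s, BS (f i)) :
    BS (fun x => ∑ i ∈ s, f i x) := by
  classical
  induction s using Finset.induction_on with
  | empty => exact ⟨0, fun _ _ => by simp⟩
  | insert i s hi ih =>
    have h1 := (h i (Finset.mem_insert_self i s)).add
      (ih fun j hj => h j (Finset.mem_insert_of_mem hj))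
    simpa only [Finset.sum_insert hi] using h1

lemma int_sum2 {ι κ : Type*} [Fintype ι] [Fintype κ] {f : ι → κ → E n → ℝ}
    (hf : ∀ a c, Integrable (f a c)) :
    ∫ x, ∑ a, ∑ c, f a c x = ∑ a, ∑ c, ∫ x, f a c x := by
  rw [integral_finsetSum _ fun a _ => integrable_finsetSum _ fun c _ => hf a c]
  refine Finset.sum_congr rfl fun a _ => ?_
  rw [integral_finsetSum _ fun c _ => hf a c]

/-- summed commutator identity -/
theorem swapSum {V : E n → ℝ} (hV : ContDiff ℝ 2 V) {P Q : Fin n → E n → ℝ}
    (hP : ∀ a, LL (P a)) (hQ : ∀ a, LL (Q a)) (hs : (∀ a, BS (P a)) ∨ ∀ a, BS (Q a)) :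
    ∫ x, (∑ a, (pd a V x * P a x - pd a (P a) x)) * (∑ c, (pd c V x * Q c x - pd c (Q c) x))
        * Real.exp (-V x)
      = (∫ x, (∑ a, ∑ c, pd c (P a) x * pd a (Q c) x) * Real.exp (-V x))
        + ∫ x, (∑ a, ∑ c, hess V x c a * P a x * Q c x) * Real.exp (-V x) := by
  have hw := (LL.exp_neg hV).lb
  have hVa : ∀ a, LB (pd a V) := fun a => LB.of_cont (pd_c1 hV a).continuous
  have hH : ∀ a c, LB (fun x => hess V x c a) := fun a c => LB.of_cont (rad_hess_cont hV c a)
  have i1 : ∀ a c, Integrable (fun x => (pd a V x * P a x - pd a (P a) x)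
      * (pd c V x * Q c x - pd c (Q c) x) * Real.exp (-V x)) := by
    intro a c
    refine LB.integrable (((((hVa a).mul (hP a).lb).sub ((hP a).pd_lb a)).mul
      (((hVa c).mul (hQ c).lb).sub ((hQ c).pd_lb c))).mul hw) ?_
    rcases hs with h | h
    · exact (((h a).mul_left).sub ((h a).pd a)).mul_right.mul_right
    · exact (((h c).mul_left).sub ((h c).pd c)).mul_left.mul_right
  have i2 : ∀ a c, Integrable (fun x => pd c (P a) x * pd a (Q c) x * Real.exp (-V x)) := by
    intro a c
    refine LB.integrable ((((hP a).pd_lb c).mul ((hQ c).pd_lb a)).mul hw) ?_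
    rcases hs with h | h
    · exact ((h a).pd c).mul_right.mul_right
    · exact ((h c).pd a).mul_left.mul_right
  have i3 : ∀ a c, Integrable (fun x => hess V x c a * P a x * Q c x * Real.exp (-V x)) := by
    intro a c
    refine LB.integrable ((((hH a c).mul (hP a).lb).mul (hQ c).lb).mul hw) ?_
    rcases hs with h | h
    · exact (h a).mul_left.mul_right.mul_right
    · exact (h c).mul_left.mul_right
  have e1 : (fun x => (∑ a, (pd a V x * P a x - pd a (P a) x))
      * (∑ c, (pd c V x * Q c x - pd c (Q c) x)) * Real.exp (-V x))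
      = fun x => ∑ a, ∑ c, (pd a V x * P a x - pd a (P a) x)
      * (pd c V x * Q c x - pd c (Q c) x) * Real.exp (-V x) := by
    funext x
    rw [Finset.sum_mul_sum, Finset.sum_mul]
    exact Finset.sum_congr rfl fun a _ => Finset.sum_mul _ _ _
  have e2 : (fun x => (∑ a, ∑ c, pd c (P a) x * pd a (Q c) x) * Real.exp (-V x))
      = fun x => ∑ a, ∑ c, pd c (P a) x * pd a (Q c) x * Real.exp (-V x) := by
    funext x
    rw [Finset.sum_mul]
    exact Finset.sum_congr rfl fun a _ => Finset.sum_mul _ _ _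
  have e3 : (fun x => (∑ a, ∑ c, hess V x c a * P a x * Q c x) * Real.exp (-V x))
      = fun x => ∑ a, ∑ c, hess V x c a * P a x * Q c x * Real.exp (-V x) := by
    funext x
    rw [Finset.sum_mul]
    exact Finset.sum_congr rfl fun a _ => Finset.sum_mul _ _ _
  rw [e1, e2, e3, int_sum2 i1, int_sum2 i2, int_sum2 i3, ← Finset.sum_add_distrib]
  refine Finset.sum_congr rfl fun a _ => ?_
  rw [← Finset.sum_add_distrib]
  refine Finset.sum_congr rfl fun c _ => ?_
  rw [swap hV (hP a) (hQ c) (hs.imp (fun h => h a) (fun h => h c)) a c,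
    ← integral_add (i2 a c) (i3 a c)]
  refine integral_congr_ae (Eventually.of_forall fun x => ?_)
  simp only
  ring

/-- summed weighted integration by parts -/
theorem ibpSum {V : E n → ℝ} (hV : ContDiff ℝ 2 V) {P : Fin n → E n → ℝ} {f : E n → ℝ}
    (hP : ∀ a, LL (P a)) (hf : LL f) (hs : (∀ a, BS (P a)) ∨ BS f) :
    ∫ x, (∑ a, (pd a V x * P a x - pd a (P a) x)) * f x * Real.exp (-V x)
      = ∫ x, (∑ a, P a x * pd a f x) * Real.exp (-V x) := by
  have hw := (LL.exp_neg hV).lb
  have hVa : ∀ a, LB (pd a V) := fun a => LB.of_cont (pd_c1 hV a).continuous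
  have i1 : ∀ a, Integrable (fun x => (pd a V x * P a x - pd a (P a) x) * f x
      * Real.exp (-V x)) := by
    intro a
    refine LB.integrable (((((hVa a).mul (hP a).lb).sub ((hP a).pd_lb a)).mul hf.lb).mul hw) ?_
    rcases hs with h | h
    · exact (((h a).mul_left).sub ((h a).pd a)).mul_right.mul_right
    · exact h.mul_left.mul_right
  have i2 : ∀ a, Integrable (fun x => P a x * pd a f x * Real.exp (-V x)) := by
    intro a
    refine LB.integrable ((((hP a).lb).mul (hf.pd_lb a)).mul hw) ?_
    rcases hs with h | h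
    · exact (h a).mul_right.mul_right
    · exact (h.pd a).mul_left.mul_right
  have e1 : (fun x => (∑ a, (pd a V x * P a x - pd a (P a) x)) * f x * Real.exp (-V x))
      = fun x => ∑ a, (pd a V x * P a x - pd a (P a) x) * f x * Real.exp (-V x) := by
    funext x
    rw [Finset.sum_mul, Finset.sum_mul]
  have e2 : (fun x => (∑ a, P a x * pd a f x) * Real.exp (-V x))
      = fun x => ∑ a, P a x * pd a f x * Real.exp (-V x) := by
    funext x
    rw [Finset.sum_mul]
  rw [e1, e2, integral_finsetSum _ fun a _ => i1 a, integral_finsetSum _ fun a _ => i2 a]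
  refine Finset.sum_congr rfl fun a _ => ?_
  exact ibpV hV (hP a) hf (hs.imp (fun h => h a) id) a

section MM

variable {ψ V : E n → ℝ} {c C M : ℝ}

lemma ll_tau (h : MM0 ψ V c C M) (i j : Fin n) : LL (fun x => tau ψ x i j) :=
  LL.of_lip (rad_lipw fun x y => rad_tau_lip h x y i j)

lemma ll_coord (j : Fin n) : LL (fun x : E n => x j) :=
  LL.of_c1 (by
    have h : (fun y : E n => y j) = (EuclideanSpace.proj j : E n →L[ℝ] ℝ) := rfl
    rw [h]
    exact (EuclideanSpace.proj j : E n →L[ℝ] ℝ).contDiff)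

lemma ll_pd {g : E n → ℝ} (hg : ContDiff ℝ 2 g) (k : Fin n) : LL (pd k g) := LL.of_c1 (pd_c1 hg k)

lemma ll_fld (h : MM0 ψ V c C M) {g : E n → ℝ} (hg : ContDiff ℝ 2 g) (a : Fin n) :
    LL (fld ψ g a) := ll_sum _ fun k _ => (ll_tau h a k).mul (ll_pd hg k)

lemma bs_fld {g : E n → ℝ} (hg : BS g) (a : Fin n) : BS (fld ψ g a) :=
  bs_sum _ fun k _ => (hg.pd k).mul_left

/-- the derivative of `fld` -/
lemma pd_fld {x : E n} (hx : Good ψ x) {g : E n → ℝ} (hg : ContDiff ℝ 2 g) (a k : Fin n) :
    pd k (fld ψ g a) x = ∑ c, (pd k (fun y => tau ψ y a c) x * pd c g x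
      + tau ψ x a c * hess g x k c) := by
  have hd : ∀ c, DifferentiableAt ℝ (pd c g) x := fun c => rad_pd_diff hg c x
  have e := pd_sum (i := k) (s := Finset.univ) (f := fun c y => tau ψ y a c * pd c g y)
    fun c _ => (hx.2 a c).mul (hd c)
  refine e.trans (Finset.sum_congr rfl fun c _ => ?_)
  rw [pd_mul (hx.2 a c) (hd c)]
  rfl

/-- `δ (τ ∇g) = -L g` -/
lemma div_fld (h : MM0 ψ V c C M) {x : E n} (hx : Good ψ x) {g : E n → ℝ} (hg : ContDiff ℝ 2 g) :
    ∑ a, (pd a V x * fld ψ g a x - pd a (fld ψ g a) x) = - Lop ψ g x := by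
  have h1 : ∀ k, ∑ a, (pd a V x * (tau ψ x a k * pd k g x)
      - pd a (fun y => tau ψ y a k) x * pd k g x) = x k * pd k g x := by
    intro k
    have := rad_div h hx k
    have e : ∑ a, (pd a V x * (tau ψ x a k * pd k g x) - pd a (fun y => tau ψ y a k) x * pd k g x)
        = - (∑ b, (pd b (fun y => tau ψ y b k) x - tau ψ x b k * pd b V x)) * pd k g x := by
      rw [neg_mul, Finset.sum_mul, ← Finset.sum_neg_distrib]
      refine Finset.sum_congr rfl fun a _ => ?_
      ring
    rw [e, this]
    ring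
  have e1 : ∑ a, (pd a V x * fld ψ g a x - pd a (fld ψ g a) x)
      = ∑ a, ∑ k, ((pd a V x * (tau ψ x a k * pd k g x)
        - pd a (fun y => tau ψ y a k) x * pd k g x) - tau ψ x a k * hess g x a k) := by
    refine Finset.sum_congr rfl fun a _ => ?_
    rw [pd_fld hx hg]
    unfold fld
    rw [Finset.mul_sum, ← Finset.sum_sub_distrib]
    refine Finset.sum_congr rfl fun k _ => ?_
    ring
  rw [e1]
  simp only [Finset.sum_sub_distrib (s := Finset.univ)]
  have e2 : ∑ a, ∑ k, (pd a V x * (tau ψ x a k * pd k g x))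
      - ∑ a, ∑ k, pd a (fun y => tau ψ y a k) x * pd k g x = ∑ k, x k * pd k g x := by
    rw [Finset.sum_comm, Finset.sum_comm (f := fun a k => pd a (fun y => tau ψ y a k) x * pd k g x),
      ← Finset.sum_sub_distrib]
    refine Finset.sum_congr rfl fun k _ => ?_
    rw [← Finset.sum_sub_distrib]
    exact h1 k
  unfold Lop
  linarith

end MM

end Vale.Agent.P254.S2b568
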