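import Vale.Agent.P254.MC.Defs
import Vale.Agent.P254.S2b568.Sums

/-! # P254, S2b (helper568): conversion from `MC.MMc` -/

namespace Vale.Agent.P254.S2b568

theorem MM0.of_mmc {n : ℕ} {ψ V : Vale.Agent.P227.M.E n → ℝ} {c C M : ℝ} (h : MC.MMc ψ V c C M) :
    MM0 ψ V c C M := ⟨h.c_pos, h.C2, h.lower, h.upper, h.lip, h.ma⟩

end Vale.Agent.P254.S2b568
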